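import Vale.Agent.P088.R2.H983.Fl.Sml
import Vale.Agent.P088.R2.H747.S.SemS
import Vale.Agent.P088.R2.H31.EP.PackL

/-!
# P088, stage 3: the slots of the package at a point

`Mt` (coefficients at most `2`, first derivatives at most `1`) and the lower bound of the metric,
from the tensor bounds `Rg`, for `n ε ≤ 1/2`, `R ≥ 1`.
-/

open Set Filter
open scoped ContDiff Topology Matrix

noncomputable section

namespace Vale.Agent.P088.R2.H983.A

open Vale.Agent.P088.LR Vale.Agent.P088.HY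
open Vale.Agent.P088.R2.H983.Fl
open Vale.Agent.P088.R2.H961.GW
open Vale.Agent.P088.R2.H747.SW (ss)
open Vale.Agent.P088.R2.H31.EP

variable {n K : ℕ} {ε R : ℝ} {s : MF n} {z : VV n}

/-- The bounds of one tensor. -/
structure Tb (ε : ℝ) (s : MF n) : Prop where
  sm : ∀ i j, ContDiff ℝ ∞ fun x => s x i j
  sy : ∀ x i j, s x i j = s x j i
  b0 : ∀ x i j, |s x i j - (1 : Matrix (Fin n) (Fin n) ℝ) i j| ≤ ε
  b1 : ∀ x i j k, |pd k (fun x => s x i j) x| ≤ ε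

theorem tb_of (h : ∀ i j, ContDiff ℝ ∞ fun x => s x i j) (hs : ∀ x, (s x).IsSymm) (hε : 0 ≤ ε)
    (hR : 1 ≤ R) (hc : ∀ i j, ∀ m ≤ 1, ∀ x,
      ‖iteratedFDeriv ℝ m (fun x => s x i j - (1 : Matrix (Fin n) (Fin n) ℝ) i j) x‖ ≤
        ε * R⁻¹ ^ m) : Tb ε s where
  sm := h
  sy x i j := (hs x).apply j i
  b0 x i j := by
    have := hc i j 0 (by norm_num) x
    rw [norm_iteratedFDeriv_zero, pow_zero, mul_one] at this
    exact this
  b1 x i j k := by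
    have h1 := hc i j 1 le_rfl x
    rw [norm_iteratedFDeriv_one, fderiv_sub_const, pow_one] at h1
    have h2 : ε * R⁻¹ ≤ ε := mul_le_of_le_one_right hε (inv_le_one_of_one_le₀ hR)
    unfold pd
    have h3 := (fderiv ℝ (fun x => s x i j) x).le_opNorm (Pi.single k 1)
    rw [Pi.norm_single, norm_one, mul_one, Real.norm_eq_abs] at h3
    linarith

theorem Rg.tb₁ {M σ kap Gs : ℝ} {s₁ s₂ : MF n} (h : Rg K ε M σ R kap Gs s₁ s₂) (hK : 1 ≤ K)
    (hε : 0 ≤ ε) (hR : 1 ≤ R) : Tb ε s₁ :=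
  tb_of h.sm₁ h.sy₁ hε hR fun i j m hm x => h.cl₁ i j m (hm.trans hK) x

theorem Rg.tb₂ {M σ kap Gs : ℝ} {s₁ s₂ : MF n} (h : Rg K ε M σ R kap Gs s₁ s₂) (hK : 1 ≤ K)
    (hε : 0 ≤ ε) (hR : 1 ≤ R) : Tb ε s₂ :=
  tb_of h.sm₂ h.sy₂ hε hR fun i j m hm x => h.cl₂ i j m (hm.trans hK) x

theorem Tb.s2 (h : Tb ε s) (hε : ε ≤ 1) (x : V n) (i j : Fin n) : |s x i j| ≤ 2 := by
  have h1 := h.b0 x i j
  have h2 : |(1 : Matrix (Fin n) (Fin n) ℝ) i j| ≤ 1 := by
    rw [Matrix.one_apply]; split_ifs <;> simp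
  have h3 : s x i j = (s x i j - (1 : Matrix (Fin n) (Fin n) ℝ) i j) +
    (1 : Matrix (Fin n) (Fin n) ℝ) i j := by ring
  rw [h3]
  exact (abs_add_le _ _).trans (by linarith)

/-- The lower bound of the metric. -/
theorem Tb.lo (h : Tb ε s) (hn : n * ε ≤ 1 / 2) (x : V n) (A : Fin n → ℝ) :
    ∑ i, A i ^ 2 ≤ 2 * ∑ i, ∑ j, s x i j * A i * A j := by
  have h1 := H960.W.abs_sum2_le (fun i j => s x i j - (1 : Matrix (Fin n) (Fin n) ℝ) i j)
    (h.b0 x) A A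
  have h2 := H960.W.L1_sq A
  rw [Fintype.card_fin] at h2
  have e1 : ∑ i, ∑ j, (s x i j - (1 : Matrix (Fin n) (Fin n) ℝ) i j) * A i * A j =
      ∑ i, ∑ j, s x i j * A i * A j - ∑ i, A i ^ 2 := by
    rw [← Finset.sum_sub_distrib]
    refine Finset.sum_congr rfl fun i _ => ?_
    have : A i ^ 2 = ∑ j, (1 : Matrix (Fin n) (Fin n) ℝ) i j * A i * A j := by
      rw [Finset.sum_eq_single i]
      · rw [Matrix.one_apply_eq]; ring
      · intro j _ hj
        rw [Matrix.one_apply_ne hj.symm]; ring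
      · intro hi; exact absurd (Finset.mem_univ i) hi
    rw [this, ← Finset.sum_sub_distrib]
    exact Finset.sum_congr rfl fun j _ => by ring
  rw [e1] at h1
  have s0 : 0 ≤ ∑ i, A i ^ 2 := Finset.sum_nonneg fun i _ => sq_nonneg _
  rcases lt_or_ge ε 0 with hε | hε
  · have hL : 0 ≤ (∑ i, |A i|) * ∑ i, |A i| := mul_self_nonneg _
    have := mul_nonpos_of_nonpos_of_nonneg hε.le hL
    have h4 := (abs_nonneg _).trans h1
    have h5 := (abs_le.1 h1).1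
    have h6 : 0 ≤ ε * ((∑ i, |A i|) * ∑ j, |A j|) := h4
    have h7 := (abs_le.1 (h1.trans (by linarith : _ ≤ (0 : ℝ)))).1
    linarith
  have h3 : ε * ((∑ i, |A i|) * ∑ j, |A j|) ≤ 1 / 2 * ∑ i, A i ^ 2 := by
    have e2 : (∑ i, |A i|) * ∑ j, |A j| = (∑ i, |A i|) ^ 2 := by ring
    rw [e2]
    have := mul_le_mul_of_nonneg_left h2 hε
    have h4 := mul_le_mul_of_nonneg_right hn s0
    linarith
  have h5 := (abs_le.1 h1).1
  linarith

theorem Tb.mtx (h : Tb ε s) (h1 : ε ≤ 1) (z : VV n) : Mt (slx (fun _ => (1 : ℝ)) s) z where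
  ds i j := ((h.sm i j).differentiable (by simp) z.1).comp z differentiableAt_fst
  s2 i j := h.s2 h1 z.1 i j
  D1 l i j := by
    have := Dx_fst (r := fun _ => (1 : ℝ)) (s := s) (z := z)
      ((h.sm i j).differentiable (by simp) z.1) l
    have e : (slx (fun _ => (1 : ℝ)) s).D l ((slx (fun _ => (1 : ℝ)) s).s i j) z =
        1 * pd l (fun x => s x i j) z.1 := this
    rw [e, one_mul]
    exact (h.b1 z.1 i j l).trans h1
  k1 l := by
    have : (slx (fun _ => (1 : ℝ)) s).k l z = 0 := by simp [slx, pd]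
    rw [this]; simp
  e1 l := by
    have : H960.W.eta (slx (fun _ => (1 : ℝ)) s) l z = 0 := by simp [H960.W.eta, slx]
    rw [this]; simp

theorem Tb.mty (h : Tb ε s) (h1 : ε ≤ 1) (z : VV n) : Mt (sly (fun _ => (1 : ℝ)) s) z where
  ds i j := ((h.sm i j).differentiable (by simp) z.2).comp z differentiableAt_snd
  s2 i j := h.s2 h1 z.2 i j
  D1 l i j := by
    have := Dy_snd (r := fun _ => (1 : ℝ)) (s := s) (z := z)
      ((h.sm i j).differentiable (by simp) z.2) l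
    have e : (sly (fun _ => (1 : ℝ)) s).D l ((sly (fun _ => (1 : ℝ)) s).s i j) z =
        1 * pd l (fun x => s x i j) z.2 := this
    rw [e, one_mul]
    exact (h.b1 z.2 i j l).trans h1
  k1 l := by
    have : (sly (fun _ => (1 : ℝ)) s).k l z = 0 := by simp [sly, pd]
    rw [this]; simp
  e1 l := by
    have : H960.W.eta (sly (fun _ => (1 : ℝ)) s) l z = 0 := by simp [H960.W.eta, sly]
    rw [this]; simp

theorem Tb.fr (h : Tb ε s) : Fr0 (fun _ => (1 : ℝ)) s univ where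
  op := isOpen_univ
  rp _ _ := one_pos
  rs := contDiffOn_const
  ss i j := (h.sm i j).contDiffOn
  sy := h.sy

/-- The density is `1`. -/
theorem tht_one : tht (n := n) (fun _ => (1 : ℝ)) (fun _ => (1 : ℝ)) = fun _ => 1 := by
  funext z; simp [tht]

theorem Tb.okx {s₂ : MF n} (h : Tb ε s) (h₂ : Tb ε s₂) {U : Set (VV n)} (hU : IsOpen U) :
    (slx (fun _ => (1 : ℝ)) s).Ok U fun _ => 1 := by
  have := H961.GW.okx h.fr h₂.fr hU (fun z _ => ⟨mem_univ _, mem_univ _⟩)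
  rwa [tht_one] at this

theorem Tb.oky {s₂ : MF n} (h : Tb ε s) (h₂ : Tb ε s₂) {U : Set (VV n)} (hU : IsOpen U) :
    (sly (fun _ => (1 : ℝ)) s₂).Ok U fun _ => 1 := by
  have := H961.GW.oky h.fr h₂.fr hU (fun z _ => ⟨mem_univ _, mem_univ _⟩)
  rwa [tht_one] at this

/-- The constants for the slots. -/
structure SlC (n : ℕ) (q : Cst) : Prop where
  ε0 : 0 ≤ q.ε
  ε1 : q.ε ≤ 1
  nε : n * q.ε ≤ 1 / 2
  R1 : 1 ≤ q.R

theorem evSlC (n : ℕ) : EvC (SlC n) := by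
  have h : EvC fun q => q.ε ≤ 1 / (2 * (n + 1)) :=
    EvC.at_ε (fun _ t => t ≤ 1 / (2 * (n + 1))) fun _ => sml_le (by positivity)
  refine (h.and EvC.pos).mono ?_
  rintro q ⟨h1, -, -, -, -, a, -, -, b⟩
  have hn : (0 : ℝ) ≤ n := Nat.cast_nonneg n
  rw [le_div_iff₀ (by positivity)] at h1
  have h2 : 0 ≤ q.ε * n := mul_nonneg a.le hn
  exact ⟨a.le, by linarith, by linarith, b⟩

variable {q : Cst} {d : Pk n}

theorem SlC.t₁ (c : SlC n q) (h : PkOk q d) : Tb q.ε d.s₁ := Rg.tb₁ h.rg (by norm_num) c.ε0 c.R1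

theorem SlC.t₂ (c : SlC n q) (h : PkOk q d) : Tb q.ε d.s₂ := Rg.tb₂ h.rg (by norm_num) c.ε0 c.R1

theorem SlC.mx (c : SlC n q) (h : PkOk q d) (z : VV n) : Mt d.sx z := (c.t₁ h).mtx c.ε1 z
theorem SlC.my (c : SlC n q) (h : PkOk q d) (z : VV n) : Mt d.sy z := (c.t₂ h).mty c.ε1 z

theorem SlC.lx (c : SlC n q) (h : PkOk q d) (z : VV n) (A : Fin n → ℝ) :
    ∑ i, A i ^ 2 ≤ 2 * ss d.sx A z := (c.t₁ h).lo c.nε z.1 A

theorem SlC.ly (c : SlC n q) (h : PkOk q d) (z : VV n) (A : Fin n → ℝ) :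
    ∑ i, A i ^ 2 ≤ 2 * ss d.sy A z := (c.t₂ h).lo c.nε z.2 A

theorem SlC.okx (c : SlC n q) (h : PkOk q d) {U : Set (VV n)} (hU : IsOpen U) :
    d.sx.Ok U fun _ => 1 := (c.t₁ h).okx (c.t₂ h) hU

theorem SlC.oky (c : SlC n q) (h : PkOk q d) {U : Set (VV n)} (hU : IsOpen U) :
    d.sy.Ok U fun _ => 1 := (c.t₁ h).oky (c.t₂ h) hU

end Vale.Agent.P088.R2.H983.A
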