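import Vale.Agent.P088.R2.H983.A.Sms
import Vale.Agent.P088.R2.H983.A.Slot
import Vale.Agent.P088.R2.H747.A.Rows

/-!
# P088, stage 3, zone A: the row `RowSms`

`rowSms : RowSym n → RowWd n → RowGeo n → RowSms n`.
-/

open Set Filter
open scoped ContDiff Topology

noncomputable section

namespace Vale.Agent.P088.R2.H983.A

open Vale.Agent.P088.LR
open Vale.Agent.P088.HY hiding dd
open Vale.Agent.P088.R2.H983.Fl Vale.Agent.P088.R2.H983.N
open Vale.Agent.P088.R2.H230.W (dd fl wt Wd Geo cv gF5)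
open Vale.Agent.P088.R2.H961.GW (Sm Sl slx sly)
open Vale.Agent.P088.R2.H747.SW (SmS ss)
open Vale.Agent.P088.R2.H747.A
open Vale.Agent.P088.R2.H31.EP
open Vale.Agent.P088.R2.H942.Iso.Near (KK)
open Vale.Agent.P088.R2.H464.Cu (mid dif rq)

/-! ## The blending function -/

theorem pb_sm : ContDiff ℝ ∞ pb := by
  unfold pb
  exact contDiff_const.sub (Real.smoothTransition.contDiff.comp (contDiff_id.sub contDiff_const))

theorem pb_nn (r : ℝ) : 0 ≤ pb r := by
  have := Real.smoothTransition.le_one (r - 15)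
  unfold pb; linarith

theorem pb_le (r : ℝ) : pb r ≤ 1 := by
  have := Real.smoothTransition.nonneg (r - 15)
  unfold pb; linarith

theorem pb_far {r : ℝ} (h : 16 ≤ r) : pb r = 0 := by
  unfold pb
  rw [Real.smoothTransition.one_of_one_le (by linarith)]; ring

theorem pb_near {r : ℝ} (h : r ≤ 15) : pb r = 1 := by
  unfold pb
  rw [Real.smoothTransition.zero_of_nonpos (by linarith)]; ring

theorem pb_far' {r : ℝ} (h : 16 ≤ r) : deriv pb r = 0 := by
  refine IsLocalMin.deriv_eq_zero (Eventually.of_forall fun s => ?_)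
  rw [pb_far h]; exact pb_nn s

theorem pb_near' {r : ℝ} (h : r ≤ 15) : deriv pb r = 0 := by
  refine IsLocalMax.deriv_eq_zero (Eventually.of_forall fun s => ?_)
  rw [pb_near h]; exact pb_le s

theorem pb_bd : ∃ P : ℝ, 0 ≤ P ∧ ∀ r, |deriv pb r| ≤ P := by
  have hc : Continuous (deriv pb) := (contDiff_infty_iff_deriv.1 pb_sm).2.continuous
  obtain ⟨P, hP⟩ := (isCompact_Icc (a := (15 : ℝ)) (b := 16)).exists_bound_of_continuousOn
    hc.continuousOn
  refine ⟨|P|, abs_nonneg _, fun r => ?_⟩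
  rcases le_or_gt r 15 with h | h
  · rw [pb_near' h]; simp
  rcases le_or_gt 16 r with h' | h'
  · rw [pb_far' h']; simp
  · exact (hP r ⟨h.le, h'.le⟩).trans (le_abs_self P)

section

variable {n : ℕ} {q : Cst} {d : Pk n} {z : VV n} {σ : Sl (VV n) (Fin n)}

/-- The direction `e`, `h` as vectors. -/
def eV (d : Pk n) (z : VV n) : Fin n → ℝ := fun l => ee d l z
def hV (z : VV n) : Fin n → ℝ := fun l => hh l z

/-- The covector near the diagonal. -/
def γN (α β : ℝ × ℝ → ℝ) (q : Cst) (d : Pk n) (z : VV n) : Fin n → ℝ :=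
  (4 * GG q d z) • gG α β (rr d) (fun z => dd (eV d z) (hV z)) (eV d) hV z

/-- The covector away from the diagonal. -/
def γF (s : ℝ) (q : Cst) (d : Pk n) (z : VV n) : Fin n → ℝ :=
  (1 * GG q d z / (300000 * rr d z)) • (s • hV z + eV d z)

/-- The blended covector. -/
def γA (α β : ℝ × ℝ → ℝ) (s : ℝ) (q : Cst) (d : Pk n) (z : VV n) : Fin n → ℝ :=
  pb (rr d z) • γN α β q d z + (1 - pb (rr d z)) • γF s q d z

theorem ga₁_eq (q : Cst) (d : Pk n) :
    (fun (z : VV n) (l : Fin n) => ga₁ q d l z) =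
      γA (c1e 2) (c1h 2) 20 q d := by
  funext z l
  have hd : dd (fun l => ee d l z) (fun l => hh l z) = dd (eV d z) (hV z) := rfl
  simp only [ga₁, γA, γN, γF, H747.N.gN1, gF5, H747.N.g1, gG, Pi.add_apply, Pi.smul_apply,
    smul_eq_mul, hd]
  simp only [eV, hV, GG, ff]
  ring

theorem ga₂_eq (q : Cst) (d : Pk n) :
    (fun (z : VV n) (l : Fin n) => ga₂ q d l z) =
      γA (c2e 2) (c2h 2) (-20) q d := by
  funext z l
  have hd : dd (fun l => ee d l z) (fun l => hh l z) = dd (eV d z) (hV z) := rfl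
  simp only [ga₂, γA, γN, γF, H747.N.gN2, gF5, H747.N.g2, gG, Pi.add_apply, Pi.smul_apply,
    smul_eq_mul, hd]
  simp only [eV, hV, GG, ff]
  ring

theorem cA₁_eq (q : Cst) (d : Pk n) : cA₁ q d = fun l z =>
    fl (eV d z) (gw d.sx (d.W q) z) (γA (c1e 2) (c1h 2) 20 q d z) l := by
  rw [← ga₁_eq]; rfl

theorem cA₂_eq (q : Cst) (d : Pk n) : cA₂ q d = fun l z =>
    fl (eV d z) (gw d.sy (d.W q) z) (γA (c2e 2) (c2h 2) (-20) q d z) l := by
  rw [← ga₂_eq]; rfl

/-! ## The data at a point -/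

/-- The data for one slot at a point of `OmB`. -/
structure Da (σ : Sl (VV n) (Fin n)) (q : Cst) (d : Pk n) (C c0 : ℝ) (z : VV n) : Prop where
  C1 : 1 ≤ C
  cp : 0 < c0
  cl : c0 ≤ 1
  dG : DifferentiableAt ℝ (GG q d) z
  G0 : 0 ≤ GG q d z
  G1 : ∀ j, |σ.D j (GG q d) z| ≤ C * GG q d z
  dr : DifferentiableAt ℝ (rr d) z
  r0 : c0 ≤ rr d z
  r1 : ∀ j, |σ.D j (rr d) z| ≤ 2
  de : Dfv (eV d) z
  eu : dd (eV d z) (eV d z) = 1
  e1 : ∀ l j, |σ.D j (fun z => eV d z l) z| ≤ C / rr d z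
  dh : Dfv (hV (n := n)) z
  hu : dd (hV z) (hV z) = 1
  h1 : ∀ l j, |σ.D j (fun z => hV z l) z| ≤ C / rr d z

/-- The constant of `Gv`. -/
def bA (n : ℕ) (C c0 P : ℝ) : ℝ :=
  (2 * (n + 1) * C / c0 + 2 * (n + 1) * C / c0 / c0) + 2 * P

variable {C c0 P Cn s : ℝ} {α β : ℝ × ℝ → ℝ}

theorem Da.nn_e (a : Da σ q d C c0 z) : nn (eV d z) = 1 := nn_one a.eu
theorem Da.nn_h (a : Da σ q d C c0 z) : nn (hV z) = 1 := nn_one a.hu

theorem sqrt_le_nat (n : ℕ) : √(n : ℝ) ≤ n := by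
  rcases Nat.eq_zero_or_pos n with h | h
  · subst h; simp
  · have h3 : (1 : ℝ) ≤ n := by exact_mod_cast h
    rw [Real.sqrt_le_left (by positivity)]
    nlinarith

theorem Da.Cr (a : Da σ q d C c0 z) : C / rr d z ≤ C / c0 :=
  div_le_div_of_nonneg_left (by linarith [a.C1]) a.cp a.r0

theorem Da.be (a : Da σ q d C c0 z) (j : Fin n) : nn (dv σ j (eV d) z) ≤ n * (C / c0) := by
  have hC := a.C1
  have hc := a.cp
  refine (nn_le_of (B := C / c0) (by positivity) fun i => (a.e1 i j).trans a.Cr).trans ?_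
  rw [Fintype.card_fin]
  exact mul_le_mul_of_nonneg_right (sqrt_le_nat n) (by positivity)

theorem Da.bh (a : Da σ q d C c0 z) (j : Fin n) : nn (dv σ j hV z) ≤ n * (C / c0) := by
  have hC := a.C1
  have hc := a.cp
  refine (nn_le_of (B := C / c0) (by positivity) fun i => (a.h1 i j).trans a.Cr).trans ?_
  rw [Fintype.card_fin]
  exact mul_le_mul_of_nonneg_right (sqrt_le_nat n) (by positivity)

/-- The covector field of zone A. -/
theorem Da.gv (a : Da σ q d C c0 z) (c : Cf α β (KK c0 16) Cn) (hs : |s| ≤ 20)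
    (hP : 0 ≤ P) (hP' : ∀ r, |deriv pb r| ≤ P)
    (dN : Dfv (γN α β q d) z) :
    Gv σ (eV d) (γA α β s q d) (fun z => GG q d z / rr d z) (3 * (896 * Cn + 1)) (bA n C c0 P) z := by
  have hC := a.C1
  have hc := a.cp
  have hCn := c.C0
  have n0 : (0 : ℝ) ≤ n := Nat.cast_nonneg n
  obtain ⟨B, hB⟩ : ∃ B : ℝ, B = 2 * (n + 1) * C / c0 := ⟨_, rfl⟩
  have Cc : C ≤ C / c0 := by
    rw [le_div_iff₀ hc]
    have := mul_le_mul_of_nonneg_left a.cl (show 0 ≤ C by linarith)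
    linarith
  have Cc0 : 0 ≤ C / c0 := by positivity
  have nC : 0 ≤ n * (C / c0) := by positivity
  have eB : B = 2 * n * (C / c0) + 2 * (C / c0) := by rw [hB]; ring
  have B0 : 0 ≤ B := by rw [eB]; linarith
  have B2 : 2 ≤ B := by linarith
  have BC : C ≤ B := by linarith
  have BB : n * (C / c0) ≤ B := by linarith
  have BB2 : 2 * (n * (C / c0)) ≤ B := by linarith
  have hbA : bA n C c0 P = (B + B / c0) + 2 * P := by rw [bA, hB]
  have Bc : 0 ≤ B / c0 := by positivity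
  have r16 : rr d z ≤ 16 ∨ 16 ≤ rr d z := le_total _ _
  have rp : 0 < rr d z := hc.trans_le a.r0
  have k0 : 0 ≤ GG q d z / rr d z := div_nonneg a.G0 rp.le
  -- the far part
  have f := gv_far (σ := σ) (z := z) (e := eV d) (h := hV) (G := GG q d) (r := rr d)
    (ρ := fun _ => 1) (c0 := c0) (B := B) (s := s) hs hc B0 a.dG a.G0
    (fun j => (a.G1 j).trans (mul_le_mul_of_nonneg_right BC a.G0)) a.dr a.r0
    (fun j => (a.r1 j).trans B2) (differentiableAt_const _) (by norm_num)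
    (fun j => by
      have : σ.D j (fun _ => (1 : ℝ)) z = 0 := by simp [Sl.D]
      rw [this]; simpa using B0)
    a.de (by rw [a.nn_e]; norm_num) (fun j => (a.be j).trans BB) a.dh (by rw [a.nn_h]; norm_num)
    (fun j => (a.bh j).trans BB)
  have f2 : Gv σ (eV d) (γF s q d) (fun z => GG q d z / rr d z) (896 * Cn + 1)
      (bA n C c0 P) z := by
    refine Gv.mono f ?_ (by positivity) k0 (by rw [hbA]; linarith)
    have : 0 ≤ Cn * (GG q d z / rr d z) := mul_nonneg hCn.le k0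
    linarith
  have dp : DifferentiableAt ℝ (fun z => pb (rr d z)) z :=
    (pb_sm.differentiable (by simp) (rr d z)).comp z a.dr
  have Dp : ∀ j, σ.D j (fun z => pb (rr d z)) z = deriv pb (rr d z) * σ.D j (rr d) z := by
    intro j
    have h1 : HasFDerivAt (fun z => pb (rr d z)) (deriv pb (rr d z) • fderiv ℝ (rr d) z) z :=
      (pb_sm.differentiable (by simp) (rr d z)).hasDerivAt.comp_hasFDerivAt z a.dr.hasFDerivAt
    simp only [Sl.D]
    rw [h1.fderiv]
    simp only [_root_.smul_apply, smul_eq_mul]; ring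
  rcases r16 with h16 | h16
  · have bg : ∀ j, |σ.D j (fun z => dd (eV d z) (hV z)) z| ≤ B := by
      intro j
      rw [D_dd σ j a.de a.dh]
      refine (abs_add_le _ _).trans ?_
      have a1 := abs_dd_le (eV d z) (dv σ j hV z)
      have a2 := abs_dd_le (dv σ j (eV d) z) (hV z)
      rw [a.nn_e, one_mul] at a1
      rw [a.nn_h, mul_one] at a2
      have := a.be j
      have := a.bh j
      linarith
    have hg : dd (eV d z) (hV z) ∈ Icc (-1 : ℝ) 1 := H747.N.eh_mem a.eu a.hu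
    have at1 : AtG σ (KK c0 16) (fun z => 4 * GG q d z) (rr d)
        (fun z => dd (eV d z) (hV z)) (eV d) hV B z :=
      { dk := a.dG.const_mul 4, ds := a.dr, dg := a.de.dd a.dh, de := a.de, dh := a.dh,
        ee := by rw [a.nn_e]; norm_num, hh := by rw [a.nn_h]; norm_num,
        mem := ⟨⟨a.r0, h16⟩, hg⟩, k0 := by have := a.G0; positivity,
        bk := fun j => by
          have e1 : σ.D j (fun z => 4 * GG q d z) z = 4 * σ.D j (GG q d) z := by
            simp only [Sl.D]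
            rw [fderiv_const_mul a.dG]
            simp only [_root_.smul_apply, smul_eq_mul]; ring
          rw [e1, abs_mul, abs_of_pos (by norm_num : (0 : ℝ) < 4)]
          have := a.G1 j
          have := mul_le_mul_of_nonneg_right BC a.G0
          linarith
        bs := fun j => (a.r1 j).trans B2, bg := bg, be := fun j => (a.be j).trans BB,
        bh := fun j => (a.bh j).trans BB }
    have g := gv_near (G := GG q d) c at1 hc a.G0 B0 h16
    have g2 : Gv σ (eV d) (γN α β q d) (fun z => GG q d z / rr d z) (896 * Cn + 1)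
        (bA n C c0 P) z := by
      refine Gv.mono g ?_ (by positivity) k0 (by rw [hbA]; linarith)
      linarith
    refine Gv.blend (p := fun z => pb (rr d z)) g2 f2 dp (pb_nn _) (pb_le _) fun j => ?_
    rw [Dp j, abs_mul]
    have := mul_le_mul (hP' (rr d z)) (a.r1 j) (abs_nonneg _) hP
    rw [hbA]; linarith
  · refine Gv.blend0 (p := fun z => pb (rr d z)) dN f2 dp (pb_far h16) fun j => ?_
    rw [Dp j, pb_far' h16, zero_mul]

/-! ## Smoothness -/

theorem eV_sum (h : dd (eV d z) (eV d z) = 1) : 0 < ∑ i, pd i d.l (mid z) ^ 2 := by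
  by_contra hc
  have h0 : ∑ i, pd i d.l (mid z) ^ 2 = 0 :=
    le_antisymm (not_lt.1 hc) (Finset.sum_nonneg fun i _ => sq_nonneg _)
  have h1 : eV d z = 0 := by
    funext l
    simp [eV, ee, h0]
  rw [h1] at h
  simp [dd] at h

theorem hV_sum (h : dd (hV z) (hV z) = 1) : 0 < HY.sq (z.1 - z.2) := by
  by_contra hc
  have h0 : √(HY.sq (z.1 - z.2)) = 0 := Real.sqrt_eq_zero_of_nonpos (not_lt.1 hc)
  have h1 : hV z = 0 := by
    funext l
    simp [hV, hh, h0]
  rw [h1] at h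
  simp [dd] at h

theorem sm_mid : ContDiff ℝ ∞ (mid : VV n → V n) :=
  (contDiff_fst.add contDiff_snd).const_smul (1 / 2 : ℝ)

variable {U : Set (VV n)}

theorem sm_eV (hl : ContDiff ℝ ∞ d.l) (hU : ∀ z ∈ U, dd (eV d z) (eV d z) = 1) : Smv U (eV d) := by
  have h1 : ∀ i, Sm U fun z => pd i d.l (mid z) := fun i =>
    (H961.GW.sm_pd isOpen_univ hl.contDiffOn i).comp sm_mid.contDiffOn fun _ _ => mem_univ _
  have h2 : Sm U fun z => ∑ i, pd i d.l (mid z) ^ 2 := ContDiffOn.sum fun i _ => (h1 i).pow 2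
  have h3 : Sm U fun z => √(∑ i, pd i d.l (mid z) ^ 2) :=
    h2.sqrt fun z hz => (eV_sum (hU z hz)).ne'
  have h4 : Sm U fun z => (√(∑ i, pd i d.l (mid z) ^ 2))⁻¹ :=
    h3.inv fun z hz => (Real.sqrt_pos.2 (eV_sum (hU z hz))).ne'
  exact fun l => h4.mul (h1 l)

theorem sm_hV (hU : ∀ z ∈ U, dd (hV z) (hV z) = 1) : Smv U (hV (n := n)) := by
  have h1 : ∀ i : Fin n, Sm U fun z : VV n => z.1 i - z.2 i := fun i =>
    (((contDiff_apply ℝ ℝ i).comp contDiff_fst).sub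
      ((contDiff_apply ℝ ℝ i).comp contDiff_snd)).contDiffOn
  have h2 : Sm U fun z : VV n => HY.sq (z.1 - z.2) :=
    (H475.contDiff_sq.comp (contDiff_fst.sub contDiff_snd)).contDiffOn
  have h3 : Sm U fun z : VV n => √(HY.sq (z.1 - z.2)) :=
    h2.sqrt fun z hz => (hV_sum (hU z hz)).ne'
  have h4 : Sm U fun z : VV n => (√(HY.sq (z.1 - z.2)))⁻¹ :=
    h3.inv fun z hz => (Real.sqrt_pos.2 (hV_sum (hU z hz))).ne'
  exact fun l => h4.mul (h1 l)

/-- The smooth data on an open set. -/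
structure Ds (q : Cst) (d : Pk n) (U : Set (VV n)) : Prop where
  op : IsOpen U
  G : Sm U (GG q d)
  r : Sm U (rr d)
  rp : ∀ z ∈ U, 0 < rr d z
  e : Smv U (eV d)
  h : Smv U (hV (n := n))
  eu : ∀ z ∈ U, dd (eV d z) (eV d z) = 1
  hu : ∀ z ∈ U, dd (hV z) (hV z) = 1

theorem Ds.γN (a : Ds q d U) (hα : ContDiffOn ℝ ∞ α (OO 2)) (hβ : ContDiffOn ℝ ∞ β (OO 2)) :
    Smv U (γN α β q d) := by
  have hm : ∀ z ∈ U, (rr d z, dd (eV d z) (hV z)) ∈ OO 2 := fun z hz => by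
    have h1 := H747.N.eh_mem (a.eu z hz) (a.hu z hz)
    exact mem_OO (by norm_num) (by norm_num) (a.rp z hz)
      ((sq_le_one_iff_abs_le_one _).2 (abs_le.2 h1))
  have hp : ContDiffOn ℝ ∞ (fun z => (rr d z, dd (eV d z) (hV z))) U := a.r.prodMk (a.e.dd a.h)
  have h1 : Sm U fun z => α (rr d z, dd (eV d z) (hV z)) := hα.comp hp hm
  have h2 : Sm U fun z => β (rr d z, dd (eV d z) (hV z)) := hβ.comp hp hm
  exact Smv.smul (contDiffOn_const.mul a.G) ((Smv.smul h1 a.e).add (Smv.smul h2 a.h))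

theorem Ds.γF (a : Ds q d U) (s : ℝ) : Smv U (γF s q d) := by
  have h1 : Sm U fun z => 1 * GG q d z / (300000 * rr d z) :=
    (contDiffOn_const.mul a.G).div (contDiffOn_const.mul a.r) fun z hz => by
      have := a.rp z hz
      positivity
  exact Smv.smul h1 ((Smv.smul contDiffOn_const a.h).add a.e)

theorem Ds.γA (a : Ds q d U) (hα : ContDiffOn ℝ ∞ α (OO 2)) (hβ : ContDiffOn ℝ ∞ β (OO 2))
    (s : ℝ) : Smv U (γA α β s q d) := by
  have h1 : Sm U fun z => pb (rr d z) := pb_sm.comp_contDiffOn a.r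
  exact (Smv.smul h1 (a.γN hα hβ)).add (Smv.smul (contDiffOn_const.sub h1) (a.γF s))

/-! ## The row -/

/-- The bound of the constants. -/
def BA (n : ℕ) (C c0 μ : ℝ) : ℝ := n * C + (1 + μ) / c0 + 1

/-- The numbers for one slot. -/
structure Dn (σ : Sl (VV n) (Fin n)) (q : Cst) (d : Pk n) (μ₀ : Cst → ℝ) (C : ℝ) (z : VV n) :
    Prop where
  mt : Mt σ z
  lo : ∀ A : Fin n → ℝ, ∑ i, A i ^ 2 ≤ 2 * ss σ A z
  dW : Dfv (gw σ (d.W q)) z
  W1 : (q.rT / 8 * NG q d z) ^ 2 < ∑ i, σ.D i (d.W q) z ^ 2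
  W2 : ∀ i j, |σ.D i (σ.D j (d.W q)) z| ≤ C * NG q d z
  m2 : ∀ j, |σ.D j (mA μ₀ q d) z| ≤ C * mA μ₀ q d z

theorem Dn.nu {μ₀ : Cst → ℝ} (m : Dn σ q d μ₀ C z) (a : Da σ q d C c0 z) (hP : 0 ≤ P)
    (hrT : 0 < q.rT) (hμ : 0 < μ₀ q) (N0 : 0 ≤ d.N q z) (T0 : 0 < NG q d z) (hσ : 0 ≤ q.σ)
    (hσR : q.σ ≤ 400 * q.R) (hR : 0 < q.R) :
    Nu σ (d.W q) (mA μ₀ q d) (fun z => GG q d z / rr d z) (bA n C c0 P) (BA n C c0 (μ₀ q))
      (q.rT / 8) (μ₀ q) (NG q d z) z := by
  have hC := a.C1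
  have hc := a.cp
  have n0 : (0 : ℝ) ≤ n := Nat.cast_nonneg n
  have rp : 0 < rr d z := hc.trans_le a.r0
  have G0 := a.G0
  have k0 : 0 ≤ GG q d z / rr d z := div_nonneg G0 rp.le
  have GT : GG q d z ≤ NG q d z := by unfold NG; linarith
  have kT : GG q d z / rr d z ≤ 1 / c0 * NG q d z := by
    have h1 : GG q d z / rr d z ≤ NG q d z / c0 :=
      div_le_div₀ T0.le GT hc a.r0
    have h2 : NG q d z / c0 = 1 / c0 * NG q d z := by ring
    rwa [h2] at h1
  have i0 : 0 < 1 / c0 := by positivity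
  have e1 : (1 + μ₀ q) / c0 = 1 / c0 + μ₀ q * (1 / c0) := by ring
  have nC : 0 ≤ n * C := by positivity
  have B1 : 1 / c0 ≤ BA n C c0 (μ₀ q) := by
    unfold BA; rw [e1]
    have : 0 ≤ μ₀ q * (1 / c0) := by positivity
    linarith
  have s1 : q.σ / (400 * q.R) ≤ 1 := by rw [div_le_one (by positivity)]; exact hσR
  have s0 : 0 ≤ q.σ / (400 * q.R) := by positivity
  have m0 : 0 ≤ mA μ₀ q d z := by
    unfold mA
    exact add_nonneg (mul_nonneg hμ.le k0) (mul_nonneg s0 T0.le)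
  refine { T0 := T0, mt := m.mt, lo := m.lo, dW := m.dW, W1 := ?_, W2 := fun j => ?_, k1 := ?_,
           km := ?_, m1 := ?_, m2 := fun j => ?_ }
  · have h1 : nn (gw σ (d.W q) z) ^ 2 = ∑ i, σ.D i (d.W q) z ^ 2 := by
      rw [nn_sq]; exact Finset.sum_congr rfl fun i _ => by unfold gw; ring
    have h2 := m.W1
    rw [← h1] at h2
    exact (abs_le_of_sq_le_sq' h2.le (nn_nonneg _)).2
  · have h1 : ∀ l, |dv σ j (gw σ (d.W q)) z l| ≤ C * NG q d z := fun l => m.W2 j l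
    refine (nn_le_of (by positivity) h1).trans ?_
    rw [Fintype.card_fin]
    have h2 := mul_le_mul_of_nonneg_right (sqrt_le_nat n) (show 0 ≤ C * NG q d z by positivity)
    have h3 : n * (C * NG q d z) ≤ BA n C c0 (μ₀ q) * NG q d z := by
      rw [← mul_assoc]
      refine mul_le_mul_of_nonneg_right ?_ T0.le
      unfold BA
      have : 0 ≤ (1 + μ₀ q) / c0 := by positivity
      linarith
    exact h2.trans h3
  · exact kT.trans (mul_le_mul_of_nonneg_right B1 T0.le)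
  · unfold mA
    have := mul_nonneg s0 T0.le
    linarith
  · have h1 := mul_le_mul_of_nonneg_left kT hμ.le
    have h2 := mul_le_mul_of_nonneg_right s1 T0.le
    have h3 : μ₀ q * (1 / c0 * NG q d z) + 1 * NG q d z ≤ BA n C c0 (μ₀ q) * NG q d z := by
      have : μ₀ q * (1 / c0) + 1 ≤ BA n C c0 (μ₀ q) := by
        unfold BA; rw [e1]; linarith
      have := mul_le_mul_of_nonneg_right this T0.le
      linarith
    unfold mA
    linarith
  · have h1 : C ≤ bA n C c0 P := by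
      have c1 : C ≤ C / c0 := by
        rw [le_div_iff₀ hc]
        have := mul_le_mul_of_nonneg_left a.cl (show 0 ≤ C by linarith)
        linarith
      have c2 : 0 ≤ C / c0 := by positivity
      have c3 : 0 ≤ 2 * (n + 1) * C / c0 / c0 := by positivity
      have c4 : 2 * (n + 1) * C / c0 = 2 * n * (C / c0) + 2 * (C / c0) := by ring
      have c5 : 0 ≤ 2 * n * (C / c0) := by positivity
      unfold bA
      linarith
    exact (m.m2 j).trans (mul_le_mul_of_nonneg_right h1 m0)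

end

/-- The constants of the near fields. -/
theorem cn_ex : ∃ Cn : ℝ → ℝ, ∀ c0, 0 < c0 →
    Cf (c1e 2) (c1h 2) (KK c0 16) (Cn c0) ∧ Cf (c2e 2) (c2h 2) (KK c0 16) (Cn c0) := by
  have h : ∀ c0 : ℝ, ∃ C, 0 < c0 →
      Cf (c1e 2) (c1h 2) (KK c0 16) C ∧ Cf (c2e 2) (c2h 2) (KK c0 16) C := fun c0 => by
    by_cases hc : 0 < c0
    · obtain ⟨C, hC⟩ := near_cf (θ := 2) (r1 := 16) (by norm_num) (by norm_num) hc
      exact ⟨C, fun _ => hC⟩
    · exact ⟨0, fun h => absurd h hc⟩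
  choose Cn hCn using h
  exact ⟨Cn, hCn⟩

/-- The lower bound of `N + G`. -/
theorem NG_ge {n : ℕ} {q : Cst} {d : Pk n} (h : PkOk q d) {z : VV n} (hr : 0 < rr d z) :
    0 < GG q d z ∧ q.M₀ ≤ d.N q z ∧ q.M₀ ≤ NG q d z := by
  have h1 : 0 < GG q d z := h.sl.G_pos (ff q d z, rr d z) hr
  have h2 : q.M₀ ≤ d.N q z := (h.ph.isΦ.n1 _).trans (h.top.l1 _)
  refine ⟨h1, h2, ?_⟩
  unfold NG; linarith

/-- **The row `RowSms`.** -/
theorem rowSms {n : ℕ} (hn : 0 < n) (sym : RowSym n) (wd : RowWd n) (geo : RowGeo n) :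
    RowSms n := by
  have : Nonempty (Fin n) := ⟨⟨0, hn⟩⟩
  obtain ⟨P, hP, hP'⟩ := pb_bd
  obtain ⟨Cn, hCn⟩ := cn_ex
  have n0 : (0 : ℝ) ≤ n := Nat.cast_nonneg n
  refine ⟨2 * n + 1, by positivity, ?_⟩
  intro μ₀ ηA hμ hη μ0 η0
  obtain ⟨C, hC, C0, hsym⟩ := sym μ₀ hμ μ0
  obtain ⟨Cg, -, -, hgeo⟩ := geo
  have hg := hgeo (fun _ => 1 / 2) (fun _ => rfl) (fun _ => by norm_num)
  -- the threshold
  have key : ∀ C c0 rT μ η : ℝ, ∃ T₀ : ℝ, 1 ≤ C → 0 < c0 → 0 < rT → 0 < μ → 0 < η → (1 ≤ T₀ ∧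
      ∀ (σ : Sl (VV n) (Fin n)) (W m k v : VV n → ℝ) (e γ : VV n → Fin n → ℝ) (T : ℝ) (z : VV n),
      T₀ ≤ T → Nu σ W m k (bA n C c0 P) (BA n C c0 μ) (rT / 8) μ T z →
      Gv σ e γ k (3 * (896 * Cn c0 + 1)) (bA n C c0 P) z → v z = 0 →
      SmS σ W m (fun l z => fl (e z) (gw σ W z) (γ z) l) v η (2 * n + 1) z) := by
    intro C c0 rT μ η
    by_cases hc : 1 ≤ C ∧ 0 < c0 ∧ 0 < rT ∧ 0 < μ ∧ 0 < η
    · obtain ⟨a1, a2, a3, a4, a5⟩ := hc
      have := (hCn c0 a2).1.C0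
      obtain ⟨T₀, h1, h2⟩ := smS_gv (E := VV n) (ι := Fin n) (C := 3 * (896 * Cn c0 + 1))
        (b := bA n C c0 P) (B := BA n C c0 μ) (c₁ := rT / 8) (μ := μ) (η := η) (K := 2 * n + 1)
        (by positivity) (by unfold bA; positivity) (by unfold BA; positivity) (by positivity)
        a4 a5 (by rw [Fintype.card_fin]; linarith)
      exact ⟨T₀, fun _ _ _ _ _ => ⟨h1, h2⟩⟩
    · exact ⟨0, fun a1 a2 a3 a4 a5 => absurd ⟨a1, a2, a3, a4, a5⟩ hc⟩
  choose T hT using key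
  have hth : EvC fun q => T (1 + C q) (q.c₀ / 2) q.rT (μ₀ q) (ηA q) ≤ q.M₀ := by
    have h := EvC.at_M₀ (fun q t => T (1 + C q) (q.c₀ / 2) q.rT (μ₀ q) (ηA q) ≤ t)
      fun q => eventually_ge_atTop _
    refine h.mono fun q hq => ?_
    rw [hC q, hμ q, hη q] at hq
    exact hq
  have hc0 : EvC fun q => q.c₀ ≤ 2 := EvC.at_c₀ (fun _ t => t ≤ 2) fun _ => sml_le (by norm_num)
  have hσ1 : EvC fun q => q.σ ≤ 1 := EvC.at_σ (fun _ t => t ≤ 1) fun _ => sml_le one_pos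
  refine (((hsym.and wd).and (hg.and (evSlC n))).and ((EvC.pos.and hth).and (hc0.and hσ1))).mono ?_
  rintro q ⟨⟨⟨sy, wq⟩, ge, sc⟩, ⟨⟨⟨p1, p2, p3, p4, p5, p6, p7, p8, p9, p10⟩,
    ⟨p11, p12, p13, -⟩, p14, -⟩, th⟩, c2, s1⟩ d h
  obtain ⟨op, w, eW⟩ := wq d h
  have c0 : 0 < q.c₀ / 2 := by positivity
  have r0 : ∀ z ∈ OmB q d, q.c₀ / 2 ≤ rr d z := fun z hz =>
    ((Real.lt_sqrt c0.le).2 hz.1).le
  have rp : ∀ z ∈ OmB q d, 0 < rr d z := fun z hz => c0.trans_le (r0 z hz)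
  have gee : ∀ z ∈ OmB q d, dd (eV d z) (eV d z) = 1 := fun z hz => by
    rcases le_total (-(4 * (q.κ₁ * q.R))) (d.u q z) with hu | hu
    · exact ((ge d h z hz).1 hu).ee
    · exact ((ge d h z hz).2 hu).ee
  have ghh : ∀ z ∈ OmB q d, dd (hV z) (hV z) = 1 := fun z hz => by
    rcases le_total (-(4 * (q.κ₁ * q.R))) (d.u q z) with hu | hu
    · exact ((ge d h z hz).1 hu).hh
    · exact ((ge d h z hz).2 hu).hh
  have sG : Sm (OmB q d) (GG q d) := w.cD.s10
  have sr : Sm (OmB q d) (rr d) := w.cr.su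
  have sN : Sm (OmB q d) (d.N q) := w.cu.s1
  have sNG : Sm (OmB q d) (NG q d) := sN.add sG
  have sW : Sm (OmB q d) (d.W q) := w.sm.congr eW
  have D : Ds q d (OmB q d) :=
    { op := op, G := sG, r := sr, rp := rp, e := sm_eV h.lev.sm gee, h := sm_hV ghh,
      eu := gee, hu := ghh }
  have sm : Sm (OmB q d) (mA μ₀ q d) :=
    (contDiffOn_const.mul (sG.div sr fun z hz => (rp z hz).ne')).add (contDiffOn_const.mul sNG)
  have okx := sc.okx h op
  have oky := sc.oky h op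
  have swx : Smv (OmB q d) (gw d.sx (d.W q)) := fun i => okx.sD sW i
  have swy : Smv (OmB q d) (gw d.sy (d.W q)) := fun i => oky.sD sW i
  have sub : OmA q d ⊆ OmB q d := fun z hz => hz.1
  have Tp : ∀ z ∈ OmB q d, 0 < NG q d z := fun z hz => by
    have := (NG_ge h (rp z hz)).2.2
    linarith
  have wx0 : ∀ z ∈ OmA q d, 0 < dd (gw d.sx (d.W q) z) (gw d.sx (d.W q) z) := fun z hz => by
    have h1 : dd (gw d.sx (d.W q) z) (gw d.sx (d.W q) z) = Wx2 q d z :=
      Finset.sum_congr rfl fun i _ => by unfold gw; ring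
    rw [h1]
    exact lt_of_le_of_lt (sq_nonneg _) hz.2.1
  have wy0 : ∀ z ∈ OmA q d, 0 < dd (gw d.sy (d.W q) z) (gw d.sy (d.W q) z) := fun z hz => by
    have h1 : dd (gw d.sy (d.W q) z) (gw d.sy (d.W q) z) = Wy2 q d z :=
      Finset.sum_congr rfl fun i _ => by unfold gw; ring
    rw [h1]
    exact lt_of_le_of_lt (sq_nonneg _) hz.2.2
  have mo : ∀ {u : VV n → Fin n → ℝ}, Smv (OmB q d) u → Smv (OmA q d) u := fun hu i =>
    (hu i).mono sub
  have f1 := D.γA (s_c1e (θ := 2) (by norm_num)) (s_c1h (by norm_num)) 20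
  have f2 := D.γA (s_c2e (θ := 2) (by norm_num)) (s_c2h (by norm_num)) (-20)
  have g1 := D.γN (s_c1e (θ := 2) (by norm_num)) (s_c1h (by norm_num))
  have g2 := D.γN (s_c2e (θ := 2) (by norm_num)) (s_c2h (by norm_num))
  obtain ⟨k1, k2⟩ := hCn _ c0
  refine ⟨fun i => ?_, fun i => ?_, sm.mono sub, fun z hz => ?_⟩
  · rw [cA₁_eq]
    exact Smv.fl (mo D.e) (mo swx) (mo f1) wx0 i
  · rw [cA₂_eq]
    exact Smv.fl (mo D.e) (mo swy) (mo f2) wy0 i
  have hB := sub hz
  obtain ⟨-, br, be', bh', bW, -, -, G1, G2, m1, m2, -⟩ := sy d h z hB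
  obtain ⟨Gp, Nz, Tz⟩ := NG_ge h (rp z hB)
  have C1 : 1 ≤ 1 + C q := by have := C0 q; linarith
  have hr := rp z hB
  have R1 := sc.R1
  have hm0 : 0 ≤ mA μ₀ q d z :=
    add_nonneg (mul_nonneg (μ0 q).le (div_nonneg Gp.le hr.le))
      (mul_nonneg (by positivity) (Tp z hB).le)
  have da : Da d.sx q d (1 + C q) (q.c₀ / 2) z :=
    { C1 := C1, cp := c0, cl := by linarith, dG := sG.diff op hB, G0 := Gp.le,
      G1 := fun j => (G1 j).trans (by linarith), dr := sr.diff op hB, r0 := r0 z hB,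
      r1 := br.x, de := D.e.df op hB, eu := gee z hB,
      e1 := fun l j => ((be' l).x j).trans (div_le_div_of_nonneg_right (by linarith) hr.le),
      dh := D.h.df op hB, hu := ghh z hB,
      h1 := fun l j => ((bh' l).x j).trans (div_le_div_of_nonneg_right (by linarith) hr.le) }
  have db : Da d.sy q d (1 + C q) (q.c₀ / 2) z :=
    { C1 := C1, cp := c0, cl := by linarith, dG := sG.diff op hB, G0 := Gp.le,
      G1 := fun j => (G2 j).trans (by linarith), dr := sr.diff op hB, r0 := r0 z hB,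
      r1 := br.y, de := D.e.df op hB, eu := gee z hB,
      e1 := fun l j => ((be' l).y j).trans (div_le_div_of_nonneg_right (by linarith) hr.le),
      dh := D.h.df op hB, hu := ghh z hB,
      h1 := fun l j => ((bh' l).y j).trans (div_le_div_of_nonneg_right (by linarith) hr.le) }
  have T0 := Tp z hB
  have na : Dn d.sx q d μ₀ (1 + C q) z :=
    { mt := sc.mx h z, lo := sc.lx h z, dW := swx.df op hB, W1 := hz.2.1,
      W2 := fun i j => (bW.xx i j).trans (by linarith),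
      m2 := fun j => (m1 j).trans (by linarith) }
  have nb : Dn d.sy q d μ₀ (1 + C q) z :=
    { mt := sc.my h z, lo := sc.ly h z, dW := swy.df op hB, W1 := hz.2.2,
      W2 := fun i j => (bW.yy i j).trans (by linarith),
      m2 := fun j => (m2 j).trans (by linarith) }
  have N0 : 0 ≤ d.N q z := by linarith
  have σR : q.σ ≤ 400 * q.R := by linarith [sc.R1]
  have R0 : 0 < q.R := by linarith [sc.R1]
  obtain ⟨-, t2⟩ := hT (1 + C q) (q.c₀ / 2) q.rT (μ₀ q) (ηA q) C1 c0 p8 (μ0 q) (η0 q)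
  have ux := na.nu (P := P) da hP p8 (μ0 q) N0 T0 p12.le σR R0
  have uy := nb.nu (P := P) db hP p8 (μ0 q) N0 T0 p12.le σR R0
  have vx := da.gv k1 (s := 20) (by norm_num) hP hP' (g1.df op hB)
  have vy := db.gv k2 (s := -20) (by norm_num) hP hP' (g2.df op hB)
  constructor
  · rw [cA₁_eq]
    exact t2 d.sx (d.W q) (mA μ₀ q d) _ 0 (eV d) _ _ z (th.trans Tz) ux vx rfl
  · rw [cA₂_eq]
    exact t2 d.sy (d.W q) (mA μ₀ q d) _ 0 (eV d) _ _ z (th.trans Tz) uy vy rfl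

end Vale.Agent.P088.R2.H983.A
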